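import Vale.Agent.P370.Bd3.B3

namespace Vale.Agent.Results.P370.QMAHard

open Vale.Agent.P370

/-- For every `c`, every promise problem in QMA has a polynomial time many-one reduction to the
continuum electronic structure problem with gap `L^{-c}`. -/
theorem result (c : ℕ) (A : PromiseProblem) (hA : A ∈ QMA) : KarpReduces A (electronicStructure c) :=
  qma_hard c A hA

end Vale.Agent.Results.P370.QMAHard
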